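import Vale.Agent.P249.Every.Final

/-!
Dimension reduction in `L_p` below every power of the number of points, at every distortion.
-/

namespace Vale.Agent.Results.P249.EveryDistortion

open MeasureTheory Vale.Agent.P249.Every

universe u

theorem result (p : ℝ) (hp : 1 < p) (D : ℝ) (hD : 1 < D) (δ : ℝ) (hδ : 0 < δ) :
    ∃ C : ℝ, 0 < C ∧ ∀ n : ℕ, 2 ≤ n → ∀ (α : Type u) [MeasurableSpace α] (μ : Measure α)
      (x : Fin n → Lp ℝ (ENNReal.ofReal p) μ),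
      ∃ d : ℕ, (d : ℝ) ≤ C * (n : ℝ) ^ δ ∧ ∃ f : Fin n → Fin d → ℝ, ∀ i j,
        ‖x i - x j‖ ≤ (∑ s, |f i s - f j s| ^ p) ^ p⁻¹ ∧
        (∑ s, |f i s - f j s| ^ p) ^ p⁻¹ ≤ D * ‖x i - x j‖ :=
  exists_every p hp D hD δ hδ

end Vale.Agent.Results.P249.EveryDistortion
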