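import Vale.Agent.P249.Grid

namespace Vale.Agent.Results.P249.PolylogLower

open MeasureTheory ProbabilityTheory Vale.Agent.P249
open scoped NNReal

theorem result (p : ℝ) (hp : 1 ≤ p) :
    ∃ c : ℝ, 0 < c ∧ ∃ N₀ : ℕ, ∀ n : ℕ, N₀ ≤ n →
      ∃ (α : Type) (_ : MeasurableSpace α) (μ : Measure α)
        (x : Fin n → Lp ℝ (ENNReal.ofReal p) μ), Function.Injective x ∧
        ∀ D : ℝ, 1 ≤ D → ∀ (d : ℕ) (f : Fin n → Fin d → ℝ),
          (∃ s : ℝ, 0 < s ∧ ∀ i j,
            s * ‖x i - x j‖ ≤ (∑ t, |f i t - f j t| ^ p) ^ p⁻¹ ∧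
            (∑ t, |f i t - f j t| ^ p) ^ p⁻¹ ≤ D * s * ‖x i - x j‖) →
          c / D ^ p * (Real.log n / Real.log (Real.log n)) ^ (p / 2) ≤ d := by
  have hp0 : 0 < p := by linarith
  have hm1 := gaussMoment_pos (p := 1) one_pos
  have hC := gridConst_pos hp0
  set k₀ : ℕ := ⌈(4 * (1 + gaussMoment 2) / gaussMoment 1) ^ 2⌉₊ + 2 with hk₀
  refine ⟨(gaussMoment 1 / 4) ^ p / (gridConst p * (8:ℝ) ^ (p / 2)), by positivity, ?_⟩
  -- `n` must be so large that the grid dimension exceeds `k₀`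
  have hbig : ∀ᶠ n : ℕ in Filter.atTop,
      8 * (k₀ : ℝ) * Real.log (Real.log n) ≤ Real.log n ∧ 3 ≤ Real.log n := by
    have hlog : Filter.Tendsto (fun n : ℕ => Real.log n) Filter.atTop Filter.atTop :=
      Real.tendsto_log_atTop.comp tendsto_natCast_atTop_atTop
    refine (hlog.eventually (p := fun y : ℝ => 8 * (k₀ : ℝ) * Real.log y ≤ y) ?_).and
      (hlog.eventually (Filter.eventually_ge_atTop 3))
    have := Real.isLittleO_log_id_atTop.bound (c := 1 / (8 * (k₀ : ℝ)))
      (by positivity)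
    filter_upwards [this, Filter.eventually_ge_atTop 1] with y hy hy1
    rw [Real.norm_eq_abs, id_eq, Real.norm_eq_abs, abs_of_nonneg (Real.log_nonneg hy1),
      abs_of_pos (by linarith)] at hy
    rw [one_div, inv_mul_eq_div, le_div_iff₀ (by positivity)] at hy
    linarith
  obtain ⟨N₀, hN₀⟩ := Filter.eventually_atTop.1 hbig
  refine ⟨N₀ + 2, fun n hn => ?_⟩
  obtain ⟨hb1, hb3⟩ := hN₀ n (by omega)
  set L := Real.log n with hL
  set l := Real.log L with hl
  have hl1 : 1 ≤ l := by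
    rw [hl, Real.le_log_iff_exp_le (by linarith)]
    linarith [Real.exp_one_lt_d9]
  have hlpos : 0 < l := by linarith
  set k : ℕ := ⌊L / (4 * l)⌋₊ with hk
  have hquot : 2 * (k₀:ℝ) ≤ L / (4 * l) := by rw [le_div_iff₀ (by positivity)]; linarith
  have hkk₀ : k₀ ≤ k := by
    refine Nat.le_floor ?_
    have : (0:ℝ) ≤ k₀ := Nat.cast_nonneg _
    linarith
  have hk2 : 2 ≤ k := by rw [hk₀] at hkk₀; omega
  have hk1 : 1 ≤ k := by omega
  have hkL : (k:ℝ) ≤ L / (4 * l) := Nat.floor_le (by positivity)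
  have hkR : (2:ℝ) ≤ k := by exact_mod_cast hk2
  have hkhalf : L / (8 * l) ≤ k := by
    have h1 := Nat.lt_floor_add_one (L / (4 * l))
    rw [← hk] at h1
    have : L / (8 * l) = L / (4 * l) / 2 := by field_simp; norm_num
    rw [this]; linarith
  -- the grid fits into `n` points
  set M : ℕ := 2 * k ^ 2 + 1 with hM
  have hfit : M ^ k ≤ n := by
    have h1 : (M:ℝ) ≤ (k:ℝ) ^ 4 := by
      have h4 : (4:ℝ) ≤ (k:ℝ) ^ 2 := by nlinarith
      rw [hM]; push_cast; nlinarith [mul_le_mul_of_nonneg_left h4 (sq_nonneg (k:ℝ))]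
    have hlk : Real.log k ≤ l := by
      rw [hl]
      refine Real.log_le_log (by linarith) (hkL.trans ?_)
      rw [div_le_iff₀ (by positivity)]
      nlinarith
    have h2 : Real.log ((M:ℝ) ^ k) ≤ L := by
      rw [Real.log_pow]
      have hMlog : Real.log (M:ℝ) ≤ 4 * l := by
        have := Real.log_le_log (by positivity) h1
        rw [Real.log_pow] at this
        push_cast at this
        linarith
      calc (k:ℝ) * Real.log M ≤ (L / (4 * l)) * (4 * l) :=
            mul_le_mul hkL hMlog (Real.log_natCast_nonneg M) (by positivity)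
        _ = L := by field_simp
    have hn0 : (0:ℝ) < n := by exact_mod_cast (by omega : 0 < n)
    have := (Real.log_le_log_iff (by positivity) hn0).1 h2
    exact_mod_cast this
  let e : (Fin k → Fin M) ≃ Fin (M ^ k) := finFunctionFinEquiv
  let v : Fin n → EuclideanSpace ℝ (Fin k) := fun i =>
    if h : (i : ℕ) < M ^ k then
      WithLp.toLp 2 (fun j => (((e.symm ⟨i, h⟩ j : ℕ) : ℝ) - (k:ℝ) ^ 2) / k)
    else EuclideanSpace.single (⟨0, by omega⟩ : Fin k) ((i : ℝ) + (k:ℝ) + 1)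
  have hround : ∀ g, ∃ i, v i = gridRound k g := by
    intro g
    let J : Fin k → Fin M := fun j => ⟨(gridInt k (g j) + (k:ℤ) ^ 2).toNat, by
      have h := gridInt_mem k (g j)
      have hsq : (((k ^ 2 : ℕ)) : ℤ) = (k:ℤ) ^ 2 := by push_cast; ring
      omega⟩
    refine ⟨⟨e J, lt_of_lt_of_le (e J).2 hfit⟩, ?_⟩
    simp only [v]
    rw [dif_pos (e J).2]
    ext j
    simp only [Fin.eta, Equiv.symm_apply_apply, gridRound, J]
    have h := gridInt_mem k (g j)
    have hc : (((gridInt k (g j) + (k:ℤ) ^ 2).toNat : ℕ) : ℝ)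
        = (gridInt k (g j) : ℝ) + (k:ℝ) ^ 2 := by
      have : (((gridInt k (g j) + (k:ℤ) ^ 2).toNat : ℕ) : ℤ) = gridInt k (g j) + (k:ℤ) ^ 2 :=
        Int.toNat_of_nonneg (by omega)
      exact_mod_cast this
    rw [hc]; ring
  have hvinj : Function.Injective v := by
    have habs : ∀ (q : Fin M), |(((q:ℕ) : ℝ) - (k:ℝ) ^ 2) / k| ≤ k := by
      intro q
      have hq : ((q:ℕ):ℝ) ≤ 2 * (k:ℝ) ^ 2 := by
        exact_mod_cast (by have := q.2; omega : (q:ℕ) ≤ 2 * k ^ 2)
      have hq0 : (0:ℝ) ≤ ((q:ℕ):ℝ) := Nat.cast_nonneg _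
      rw [abs_div, Nat.abs_cast, div_le_iff₀ (by linarith), abs_le]
      constructor <;> nlinarith
    intro a b hab
    simp only [v] at hab
    split_ifs at hab with ha hb hb
    · have h1 : e.symm ⟨a, ha⟩ = e.symm ⟨b, hb⟩ := by
        funext j
        have hj := congrArg (fun w : EuclideanSpace ℝ (Fin k) => w j) hab
        simp only at hj
        have hkne : (k:ℝ) ≠ 0 := by linarith
        rw [div_left_inj' hkne] at hj
        exact Fin.ext (Nat.cast_injective (R := ℝ) (by linarith))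
      have := e.symm.injective h1
      exact Fin.ext (Fin.mk.inj this)
    · exfalso
      have hj := congrArg (fun w : EuclideanSpace ℝ (Fin k) => w ⟨0, by omega⟩) hab
      simp at hj
      have := habs (e.symm ⟨a, ha⟩ ⟨0, by omega⟩)
      rw [hj, abs_of_nonneg (by positivity)] at this
      linarith [(Nat.cast_nonneg (b:ℕ) : (0:ℝ) ≤ _)]
    · exfalso
      have hj := congrArg (fun w : EuclideanSpace ℝ (Fin k) => w ⟨0, by omega⟩) hab
      simp at hj
      have := habs (e.symm ⟨b, hb⟩ ⟨0, by omega⟩)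
      rw [← hj, abs_of_nonneg (by positivity)] at this
      linarith [(Nat.cast_nonneg (a:ℕ) : (0:ℝ) ≤ _)]
    · have hj := congrArg (fun w : EuclideanSpace ℝ (Fin k) => w ⟨0, by omega⟩) hab
      simp at hj
      exact Fin.ext (by exact_mod_cast hj)
  -- the isometric copy in `L_p` of the Gaussian measure
  set μ := stdGaussian (EuclideanSpace ℝ (Fin k)) with hμ
  set σ := (gaussMoment p) ^ p⁻¹ with hσ
  have hσ0 : 0 < σ := Real.rpow_pos_of_pos (gaussMoment_pos hp0) _
  have hmem : ∀ w : EuclideanSpace ℝ (Fin k),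
      MemLp (fun y => innerSL ℝ w y / σ) (ENNReal.ofReal p) μ := fun w => by
    have h := ((IsGaussian.memLp_id μ (ENNReal.ofReal p) ENNReal.ofReal_ne_top).continuousLinearMap_comp
      (innerSL ℝ w)).const_mul σ⁻¹
    simpa [div_eq_inv_mul] using h
  let x : Fin n → Lp ℝ (ENNReal.ofReal p) μ := fun i => (hmem (v i)).toLp _
  have hnorm : ∀ i j, ‖x i - x j‖ = ‖v i - v j‖ := by
    intro i j
    have h := (Lp_sub_integral hp (x i) (x j)).2
    have hae : (fun z => |x i z - x j z| ^ p) =ᵐ[μ]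
        fun z => |innerSL ℝ (v i - v j) z| ^ p / gaussMoment p := by
      filter_upwards [(hmem (v i)).coeFn_toLp, (hmem (v j)).coeFn_toLp] with z hi hj
      simp only [x] at *
      rw [hi, hj, ← sub_div, ← sub_apply, ← map_sub, abs_div, abs_of_pos hσ0,
        Real.div_rpow (abs_nonneg _) hσ0.le, hσ, Real.rpow_inv_rpow (gaussMoment_nonneg p) hp0.ne']
    rw [integral_congr_ae hae, integral_div, (integral_abs_apply_rpow _ hp0).2,
      innerSL_apply_norm, mul_div_cancel_right₀ _ (gaussMoment_pos hp0).ne'] at h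
    exact ((Real.rpow_left_inj (norm_nonneg _) (Lp_norm_nonneg' _) hp0.ne').1 h).symm
  refine ⟨EuclideanSpace ℝ (Fin k), inferInstance, μ, x, ?_, ?_⟩
  · intro a b hab
    apply hvinj
    have h0 := hnorm a b
    rw [hab, sub_self, Lp.norm_zero] at h0
    exact sub_eq_zero.1 (norm_eq_zero.1 h0.symm)
  intro D hD d f ⟨s, hs, hf⟩
  set K : ℝ≥0 := ⟨D, by linarith⟩ with hK
  -- coordinates, extended to Lipschitz functions
  have hcoord : ∀ t : Fin d, ∀ i j, |f i t / s - f j t / s| ≤ D * ‖v i - v j‖ := by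
    intro t i j
    have h1 : |f i t - f j t| ≤ (∑ r, |f i r - f j r| ^ p) ^ p⁻¹ := by
      rw [Real.le_rpow_inv_iff_of_pos (abs_nonneg _)
        (Finset.sum_nonneg fun _ _ => Real.rpow_nonneg (abs_nonneg _) _) hp0]
      exact Finset.single_le_sum (fun r _ => Real.rpow_nonneg (abs_nonneg (f i r - f j r)) p)
        (Finset.mem_univ t)
    have h2 := h1.trans (hf i j).2
    rw [← sub_div, abs_div, abs_of_pos hs, div_le_iff₀ hs, ← hnorm]
    linarith
  have hne : Nonempty (Fin n) := ⟨⟨0, by omega⟩⟩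
  have hext : ∀ t : Fin d, ∃ φ : EuclideanSpace ℝ (Fin k) → ℝ, LipschitzWith K φ ∧
      ∀ i, φ (v i) = f i t / s := by
    intro t
    have hlip : LipschitzOnWith K (fun w => f (Function.invFun v w) t / s) (Set.range v) := by
      refine LipschitzOnWith.of_dist_le_mul ?_
      rintro _ ⟨i, rfl⟩ _ ⟨j, rfl⟩
      simp only [Function.leftInverse_invFun hvinj _]
      rw [Real.dist_eq, dist_eq_norm]
      exact hcoord t i j
    obtain ⟨φ, hφ, heq⟩ := hlip.extend_real
    refine ⟨φ, hφ, fun i => ?_⟩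
    rw [← heq (Set.mem_range_self i)]
    simp only [Function.leftInverse_invFun hvinj i]
  choose φ hφ hφv using hext
  have hbigk : 4 * (1 + gaussMoment 2) ≤ Real.sqrt k * gaussMoment 1 := by
    rw [← div_le_iff₀ hm1]
    refine Real.le_sqrt_of_sq_le ?_
    have h1 := Nat.le_ceil ((4 * (1 + gaussMoment 2) / gaussMoment 1) ^ 2)
    have h2 : (⌈(4 * (1 + gaussMoment 2) / gaussMoment 1) ^ 2⌉₊ : ℝ) ≤ k := by
      exact_mod_cast (by omega : ⌈(4 * (1 + gaussMoment 2) / gaussMoment 1) ^ 2⌉₊ ≤ k)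
    linarith
  have hlow := grid_lower hk1 hp hbigk d φ K hφ (fun g g' => by
    obtain ⟨i, hi⟩ := hround g
    obtain ⟨j, hj⟩ := hround g'
    rw [← hi, ← hj, ← hnorm]
    simp only [hφv]
    have h1 := (hf i j).1
    rw [Real.le_rpow_inv_iff_of_pos (mul_nonneg hs.le (Lp_norm_nonneg' _))
      (Finset.sum_nonneg fun _ _ => Real.rpow_nonneg (abs_nonneg _) _) hp0,
      Real.mul_rpow hs.le (Lp_norm_nonneg' _), mul_comm,
      ← le_div_iff₀ (Real.rpow_pos_of_pos hs p), Finset.sum_div] at h1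
    refine h1.trans (le_of_eq (Finset.sum_congr rfl fun t _ => ?_))
    rw [← sub_div, abs_div, abs_of_pos hs, Real.div_rpow (abs_nonneg _) hs.le])
  have hDp : 0 < D ^ p := Real.rpow_pos_of_pos (by linarith) p
  rw [Real.mul_rpow (Real.sqrt_nonneg _) (by positivity), Real.sqrt_eq_rpow,
    ← Real.rpow_mul (Nat.cast_nonneg k), show (1:ℝ) / 2 * p = p / 2 by ring] at hlow
  have hKcoe : (K:ℝ) = D := rfl
  rw [hKcoe] at hlow
  have hpow : (L / l) ^ (p / 2) ≤ (8:ℝ) ^ (p / 2) * (k:ℝ) ^ (p / 2) := by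
    rw [← Real.mul_rpow (by norm_num) (Nat.cast_nonneg k)]
    refine Real.rpow_le_rpow (by positivity) ?_ (by linarith)
    have : L / l = 8 * (L / (8 * l)) := by field_simp
    rw [this]; linarith
  calc (gaussMoment 1 / 4) ^ p / (gridConst p * (8:ℝ) ^ (p / 2)) / D ^ p * (L / l) ^ (p / 2)
      ≤ (gaussMoment 1 / 4) ^ p / (gridConst p * (8:ℝ) ^ (p / 2)) / D ^ p *
          ((8:ℝ) ^ (p / 2) * (k:ℝ) ^ (p / 2)) := mul_le_mul_of_nonneg_left hpow (by positivity)
    _ = (k:ℝ) ^ (p / 2) * (gaussMoment 1 / 4) ^ p / (gridConst p * D ^ p) := by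
        field_simp
    _ ≤ d := by rw [div_le_iff₀ (by positivity)]; exact hlow

end Vale.Agent.Results.P249.PolylogLower
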